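import Vale.Agent.P247.H558.SH.Wind

/-!
# P247, layer C: the branches of `Brs` and their powers
-/

open scoped ContDiff Topology
open Set MeasureTheory Filter Metric Asymptotics

noncomputable section

namespace Vale.Agent.P247.H558.SH

open Vale.Agent.P247.H74 Vale.Agent.P247.H74.CE Vale.Agent.P247.H574

/-- `LeadL` is a local property -/
theorem LeadL.congr {D : Data} {u v : ℂ → R4} {k : ℕ} {a b : R4} (h : LeadL D u k a b)
    (e : u =ᶠ[𝓝 0] v) : LeadL D v k a b := by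
  have e0 : u 0 = v 0 := e.eq_of_nhds
  have e1 : ∀ᶠ z in 𝓝 (0 : ℂ), u =ᶠ[𝓝 z] v := e.eventually_nhds
  refine ⟨h.c1.congr_of_eventuallyEq e.symm, ?_, h.hk, by rw [← e0]; exact h.hab, ?_, ?_⟩
  · filter_upwards [h.hJ, e1] with z h1 h2
    rw [← h2.fderiv_eq, ← h2.eq_of_nhds]
    exact h1
  · refine h.rem0.congr ?_
    filter_upwards [nhdsWithin_le_nhds e] with z hz
    rw [hz, e0]
  · refine h.rem1.congr ?_
    filter_upwards [nhdsWithin_le_nhds e1] with z hz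
    rw [hz.fderiv_eq, e0]

/-- the orders of the branches -/
theorem disc_lead {D : Data} {u : ℂ → R4} (hu : JDisc D u)
    (hi : ∀ z ∈ ball (0 : ℂ) 2, z ≠ 0 → fderiv ℝ u z 1 ≠ 0) {b : R4}
    (hb : H58.LW.Trans D (u 0) u b) : ∃ k a, LeadL D u k a b := by
  obtain ⟨k, a, hk, ha, C, hC, h⟩ := H520.disc_exp hu hi
  obtain ⟨U, hU, hUu⟩ := H520.exists_ext hu.smooth
  have hcb : ∀ᶠ z in 𝓝 (0 : ℂ), z ∈ ball (0 : ℂ) 1 := ball_mem_nhds _ one_pos
  have eU0 : U =ᶠ[𝓝 0] u := by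
    filter_upwards [hcb] with z hz
    exact hUu z (ball_subset_closedBall hz)
  have eU : ∀ᶠ z in 𝓝 (0 : ℂ), U =ᶠ[𝓝 z] u := eU0.eventually_nhds
  have e00 : U 0 = u 0 := eU0.eq_of_nhds
  have hUJ : ∀ᶠ z in 𝓝 (0 : ℂ), fderiv ℝ U z Complex.I = D.J (U z) (fderiv ℝ U z 1) := by
    filter_upwards [eU, hcb] with z h1 h2
    rw [h1.fderiv_eq, h1.eq_of_nhds]
    exact hu.hol z (ball_subset_ball (by norm_num) h2)
  -- transversality of the leading vector
  have hab : Om D (u 0) a b ≠ 0 := by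
    intro hab
    obtain ⟨c, hc, hT⟩ := hb
    obtain ⟨c', hc', hl⟩ := H94.cm_lower D (u 0) a ha
    set M := ‖(OmL D (u 0)).flip b‖ with hM
    have hM0 : 0 ≤ M := norm_nonneg _
    -- for small `z`
    have hs : ∀ᶠ z in 𝓝[≠] (0 : ℂ), (C * c + M * C) * ‖z‖ < c * (c' * k) := by
      have h1 : Tendsto (fun z : ℂ => (C * c + M * C) * ‖z‖) (𝓝 0) (𝓝 0) := by
        have : Continuous (fun z : ℂ => (C * c + M * C) * ‖z‖) := by fun_prop
        simpa using this.tendsto 0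
      have hkp : (0 : ℝ) < k := by exact_mod_cast hk
      exact (h1.eventually_lt_const (by positivity)).filter_mono nhdsWithin_le_nhds
    have h' := h.filter_mono (nhdsWithin_le_nhds (s := {(0 : ℂ)}ᶜ))
    obtain ⟨z, h1, h2, h3, hz⟩ := (hs.and (h'.and (hT.and ne_ev))).exists
    have h4 := h2.2 1
    rw [mul_one, norm_one, mul_one] at h4
    set w : ℂ := (k : ℂ) * z ^ (k - 1) with hw
    have h5 : ‖Om D (u 0) (fderiv ℝ u z 1) b‖ ≤ M * (C * ‖z‖ ^ k) := by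
      have e1 : Om D (u 0) (fderiv ℝ u z 1) b =
          (OmL D (u 0)).flip b (fderiv ℝ u z 1 - cm D (u 0) w a) := by
        rw [map_sub, ContinuousLinearMap.flip_apply, ContinuousLinearMap.flip_apply, OmL_apply,
          OmL_apply, cm_Om, hab, mul_zero, sub_zero]
      rw [e1]
      refine (ContinuousLinearMap.le_opNorm _ _).trans ?_
      gcongr
    have h6 : c' * ‖w‖ - C * ‖z‖ ^ k ≤ ‖fderiv ℝ u z 1‖ := by
      have h7 := hl w
      have h8 : ‖cm D (u 0) w a‖ ≤ ‖fderiv ℝ u z 1‖ + ‖fderiv ℝ u z 1 - cm D (u 0) w a‖ := by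
        have := norm_sub_le (fderiv ℝ u z 1) (fderiv ℝ u z 1 - cm D (u 0) w a)
        rwa [sub_sub_cancel] at this
      linarith
    have h7 : ‖w‖ = k * ‖z‖ ^ (k - 1) := by
      rw [hw, norm_mul, Complex.norm_natCast, norm_pow]
    have h8 : ‖z‖ ^ k = ‖z‖ * ‖z‖ ^ (k - 1) := by
      rw [← pow_succ', Nat.sub_add_cancel hk]
    have h9 : 0 < ‖z‖ ^ (k - 1) := pow_pos (norm_pos_iff.2 hz) _
    have h10 : c * (c' * ‖w‖ - C * ‖z‖ ^ k) ≤ M * (C * ‖z‖ ^ k) :=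
      (mul_le_mul_of_nonneg_left h6 hc.le).trans (h3.trans h5)
    rw [h7, h8] at h10
    have h11 : (c * (c' * k) - (C * c + M * C) * ‖z‖) * ‖z‖ ^ (k - 1) ≤ 0 := by nlinarith
    have h12 : 0 < (c * (c' * k) - (C * c + M * C) * ‖z‖) * ‖z‖ ^ (k - 1) :=
      mul_pos (by linarith) h9
    linarith
  refine ⟨k, a, (leadL_of_littleO hU hUJ hk (by rw [e00]; exact hab) ?_).congr eU0⟩
  rw [isLittleO_iff]
  intro c hc
  have hs : ∀ᶠ z in 𝓝 (0 : ℂ), C * ‖z‖ < c := by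
    have h1 : Tendsto (fun z : ℂ => C * ‖z‖) (𝓝 0) (𝓝 0) := by
      have : Continuous (fun z : ℂ => C * ‖z‖) := by fun_prop
      simpa using this.tendsto 0
    exact h1.eventually_lt_const hc
  filter_upwards [hs, h, eU] with z h1 h2 h3
  rw [h3.eq_of_nhds, e00]
  refine h2.1.trans ?_
  rw [norm_pow, norm_norm, pow_succ', ← mul_assoc]
  exact mul_le_mul_of_nonneg_right h1.le (by positivity)

theorem brs_lead {D : Data} {K : Set R4} {x : R4} {N : ℕ} {u : Fin N → ℂ → R4} {ε : ℝ}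
    (hB : Brs D K x N u ε) {b : R4} (hb : ∀ l, H58.LW.Trans D x (u l) b) (l : Fin N) :
    ∃ k a, LeadL D (u l) k a b := by
  refine disc_lead (hB.disc l) (hB.imm l) ?_
  rw [hB.zero l]
  exact hb l

theorem LeadL.order_one {D : Data} {u : ℂ → R4} {k : ℕ} {a b : R4} (h : LeadL D u k a b) :
    k = 1 ↔ fderiv ℝ u 0 1 ≠ 0 := by
  have ha : a ≠ 0 := frame_ne D (u 0) a b h.hab
  have h3 : ContinuousAt (fderiv ℝ u) 0 := (h.c1.fderiv_right (m := 0) (by simp)).continuousAt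
  have h4 : ContinuousAt (fun z => fderiv ℝ u z 1) 0 := h3.clm_apply continuousAt_const
  have h5 := h4.tendsto.mono_left (nhdsWithin_le_nhds (s := {(0 : ℂ)}ᶜ))
  have h6 : Tendsto (fun z => fderiv ℝ u z 1 - cm D (u 0) (k * z ^ (k - 1)) a) (𝓝[≠] 0)
      (𝓝 0) := h.rem1.tendsto (by have := h.hk; omega)
  have h7 := h5.sub h6
  simp only [sub_sub_cancel, sub_zero] at h7
  have h8 : Tendsto (fun z : ℂ => cm D (u 0) (k * z ^ (k - 1)) a) (𝓝[≠] 0)
      (𝓝 (cm D (u 0) (k * (0 : ℂ) ^ (k - 1)) a)) := by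
    have h9 : Continuous (fun z : ℂ => (cmB D (u 0)).flip a (k * z ^ (k - 1))) := by fun_prop
    have := (h9.tendsto 0).mono_left (nhdsWithin_le_nhds (s := {(0 : ℂ)}ᶜ))
    simpa [cmB_apply] using this
  have h10 := tendsto_nhds_unique h7 h8
  rw [h10]
  constructor
  · rintro rfl
    simpa [cm_one] using ha
  · intro h11
    by_contra hk
    apply h11
    rw [zero_pow (by have := h.hk; omega), mul_zero, cm_zero]

/-- powers -/
theorem Cl_pow {E : Type*} [NormedAddCommGroup E] [NormedSpace ℝ E] {m : ℤ} {f : ℂ → E}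
    (hf : Cl m f) {q : ℕ} (hq : 1 ≤ q) : Cl (m * q) (fun z => f (z ^ q)) := by
  have hq0 : q ≠ 0 := by omega
  have ht : Tendsto (fun z : ℂ => z ^ q) (𝓝[≠] 0) (𝓝[≠] 0) := by
    rw [tendsto_nhdsWithin_iff]
    constructor
    · have h1 : Continuous (fun z : ℂ => z ^ q) := by fun_prop
      have := (h1.tendsto 0).mono_left (nhdsWithin_le_nhds (s := {(0 : ℂ)}ᶜ))
      rwa [zero_pow hq0] at this
    · filter_upwards [ne_ev] with z hz
      exact pow_ne_zero q hz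
  have hd : ∀ z : ℂ, HasFDerivAt (fun z : ℂ => z ^ q)
      ((ContinuousLinearMap.toSpanSingleton ℂ ((q : ℂ) * z ^ (q - 1))).restrictScalars ℝ) z := by
    intro z
    have : HasDerivAt (fun z : ℂ => z ^ q) ((q : ℂ) * z ^ (q - 1)) z := hasDerivAt_pow q z
    exact this.hasFDerivAt.restrictScalars ℝ
  refine ⟨?_, ?_, ?_⟩
  · filter_upwards [ht.eventually hf.c1] with z hz
    have h2 : ContDiffAt ℝ 1 (fun z : ℂ => z ^ q) z := by fun_prop
    exact ContDiffAt.comp z hz h2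
  · refine (hf.bd.comp_tendsto ht).congr' (EventuallyEq.refl _ _) ?_
    filter_upwards with z
    simp only [Function.comp, norm_pow]
    rw [← zpow_natCast, ← zpow_mul, mul_comm]
  · have h1 := hf.dbd.comp_tendsto ht
    have h2 : (fun z : ℂ => fderiv ℝ (fun z => f (z ^ q)) z) =O[𝓝[≠] 0]
        (fun z : ℂ => ‖fderiv ℝ f (z ^ q)‖ * ‖z‖ ^ ((q : ℤ) - 1)) := by
      refine IsBigO.of_bound q ?_
      filter_upwards [ht.eventually hf.diff] with z hz
      have h3 : HasFDerivAt (fun z => f (z ^ q)) ((fderiv ℝ f (z ^ q)).comp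
        ((ContinuousLinearMap.toSpanSingleton ℂ ((q : ℂ) * z ^ (q - 1))).restrictScalars ℝ)) z :=
        hz.hasFDerivAt.comp z (hd z)
      rw [h3.fderiv]
      have h4 : ‖((ContinuousLinearMap.toSpanSingleton ℂ
          ((q : ℂ) * z ^ (q - 1))).restrictScalars ℝ : ℂ →L[ℝ] ℂ)‖ ≤ q * ‖z‖ ^ ((q : ℤ) - 1) := by
        refine ContinuousLinearMap.opNorm_le_bound _ (by positivity) fun ζ => ?_
        have e1 : ((ContinuousLinearMap.toSpanSingleton ℂ
          ((q : ℂ) * z ^ (q - 1))).restrictScalars ℝ : ℂ →L[ℝ] ℂ) ζ = ζ * ((q : ℂ) * z ^ (q - 1)) := by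
          simp
        rw [e1, norm_mul, norm_mul, Complex.norm_natCast, norm_pow]
        have e2 : ‖z‖ ^ ((q : ℤ) - 1) = ‖z‖ ^ (q - 1) := by
          rw [show (q : ℤ) - 1 = ((q - 1 : ℕ) : ℤ) by push_cast [hq]; ring, zpow_natCast]
        rw [e2, mul_comm]
      refine (ContinuousLinearMap.opNorm_comp_le _ _).trans ?_
      rw [norm_mul, norm_norm, Real.norm_of_nonneg (by positivity : (0 : ℝ) ≤ ‖z‖ ^ ((q : ℤ) - 1))]
      calc ‖fderiv ℝ f (z ^ q)‖ * _ ≤ ‖fderiv ℝ f (z ^ q)‖ * (q * ‖z‖ ^ ((q : ℤ) - 1)) := by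
            gcongr
        _ = _ := by ring
    refine h2.trans ?_
    have h5 : (fun z : ℂ => ‖fderiv ℝ f (z ^ q)‖ * ‖z‖ ^ ((q : ℤ) - 1)) =O[𝓝[≠] 0]
        (fun z : ℂ => ‖z ^ q‖ ^ (m - 1) * ‖z‖ ^ ((q : ℤ) - 1)) :=
      h1.norm_left.mul (isBigO_refl _ _)
    refine h5.congr' (EventuallyEq.refl _ _) ?_
    filter_upwards [ne_ev] with z hz
    rw [norm_pow, ← zpow_natCast, ← zpow_mul, ← zpow_add₀ (norm_ne_zero_iff.2 hz)]
    congr 1
    ring

/-- the branch `u (z ^ q)` -/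
theorem LeadL.pow {D : Data} {u : ℂ → R4} {k : ℕ} {a b : R4} (h : LeadL D u k a b) {q : ℕ}
    (hq : 1 ≤ q) : LeadL D (fun z => u (z ^ q)) (k * q) a b := by
  have hq0 : q ≠ 0 := by omega
  have hk := h.hk
  have h00 : (0 : ℂ) ^ q = 0 := zero_pow hq0
  have ht0 : Tendsto (fun z : ℂ => z ^ q) (𝓝 0) (𝓝 0) := by
    have h1 : Continuous (fun z : ℂ => z ^ q) := by fun_prop
    have := h1.tendsto 0
    rwa [h00] at this
  have hd : ∀ z : ℂ, HasFDerivAt (fun z : ℂ => z ^ q)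
      ((ContinuousLinearMap.toSpanSingleton ℂ ((q : ℂ) * z ^ (q - 1))).restrictScalars ℝ) z := by
    intro z
    have : HasDerivAt (fun z : ℂ => z ^ q) ((q : ℂ) * z ^ (q - 1)) z := hasDerivAt_pow q z
    exact this.hasFDerivAt.restrictScalars ℝ
  -- derivative of the composition
  have hfd : ∀ᶠ z in 𝓝 (0 : ℂ), ∀ c : ℂ, fderiv ℝ (fun z => u (z ^ q)) z c =
      cm D (u (z ^ q)) (c * ((q : ℂ) * z ^ (q - 1))) (fderiv ℝ u (z ^ q) 1) := by
    filter_upwards [ht0.eventually h.diff, ht0.eventually h.hJ] with z h1 h2 c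
    have h3 : HasFDerivAt (fun z => u (z ^ q)) ((fderiv ℝ u (z ^ q)).comp
        ((ContinuousLinearMap.toSpanSingleton ℂ ((q : ℂ) * z ^ (q - 1))).restrictScalars ℝ)) z :=
        h1.hasFDerivAt.comp z (hd z)
    rw [h3.fderiv]
    have e1 : ((fderiv ℝ u (z ^ q)).comp ((ContinuousLinearMap.toSpanSingleton ℂ
      ((q : ℂ) * z ^ (q - 1))).restrictScalars ℝ)) c =
        fderiv ℝ u (z ^ q) (c * ((q : ℂ) * z ^ (q - 1))) := by
      simp
    rw [e1, fderiv_cmL h2]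
  refine ⟨?_, ?_, Nat.mul_pos hk (by omega), by simpa [h00] using h.hab, ?_, ?_⟩
  · have h1 : ContDiffAt ℝ 1 (fun z : ℂ => z ^ q) 0 := by fun_prop
    have h2 : ContDiffAt ℝ 1 u ((fun z : ℂ => z ^ q) 0) := by
      simp only [h00]; exact h.c1
    exact ContDiffAt.comp 0 h2 h1
  · filter_upwards [hfd] with z hz
    rw [hz, hz, one_mul]
    have : D.J (u (z ^ q)) (cm D (u (z ^ q)) ((q : ℂ) * z ^ (q - 1)) (fderiv ℝ u (z ^ q) 1)) =
        cm D (u (z ^ q)) Complex.I (cm D (u (z ^ q)) ((q : ℂ) * z ^ (q - 1))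
          (fderiv ℝ u (z ^ q) 1)) := by
      conv_rhs => rw [cm]
      simp
    rw [this, cm_cm]
  · have h1 := Cl_pow h.rem0 hq
    refine (h1.mono (m' := ((k * q : ℕ) : ℤ) + 1) (by push_cast; nlinarith)).congr
      (Eventually.of_forall fun z => ?_)
    simp only [h00]
    rw [← pow_mul, mul_comm q k]
  · have hq1 : Cl ((q : ℤ) - 1) (fun z : ℂ => (q : ℂ) * z ^ (q - 1)) := by
      have h1 : Cl ((q : ℤ) - 1) (fun z : ℂ => ((q : ℝ) • ContinuousLinearMap.id ℝ ℂ)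
        (z ^ ((q : ℤ) - 1))) := (Cl.zpow ((q : ℤ) - 1)).clm _
      refine h1.congr (Eventually.of_forall fun z => ?_)
      have e1 : z ^ ((q : ℤ) - 1) = z ^ (q - 1) := by
        rw [show (q : ℤ) - 1 = ((q - 1 : ℕ) : ℤ) by push_cast [hq]; ring, zpow_natCast]
      rw [e1]
      simp
    have hJ : Cl ((k : ℤ) * q) (fun z => cmB D (u (z ^ q)) - cmB D (u 0)) := by
      have e1 : Cl (k : ℤ) (fun z => cmB D (u z) - cmB D (u 0)) :=
        h.sub_cl.left ((cmB_smooth D).contDiffAt.of_le (by simp)) (by omega)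
      exact Cl_pow e1 hq
    have hT := Cl_pow h.T_cl hq
    have hR := Cl_pow h.rem1 hq
    have t1 : Cl ((k : ℤ) * q + ((q : ℤ) - 1) + ((k : ℤ) - 1) * q)
        (fun z => (cmB D (u (z ^ q)) - cmB D (u 0)) ((q : ℂ) * z ^ (q - 1))
          (fderiv ℝ u (z ^ q) 1)) := by
      have e1 := (hJ.bil (ContinuousLinearMap.id ℝ (ℂ →L[ℝ] R4 →L[ℝ] R4)) hq1)
      exact e1.bil (ContinuousLinearMap.id ℝ (R4 →L[ℝ] R4)) hT
    have t2 : Cl (((q : ℤ) - 1) + (k : ℤ) * q) (fun z => cmB D (u 0) ((q : ℂ) * z ^ (q - 1))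
        (fderiv ℝ u (z ^ q) 1 - cm D (u 0) (k * (z ^ q) ^ (k - 1)) a)) :=
      hq1.bil (cmB D (u 0)) hR
    have hkz : (1 : ℤ) ≤ k := by exact_mod_cast hk
    have hqz : (1 : ℤ) ≤ q := by exact_mod_cast hq
    refine ((t1.mono (m' := ((k * q : ℕ) : ℤ)) (by push_cast; nlinarith)).add
      (t2.mono (m' := ((k * q : ℕ) : ℤ)) (by push_cast; linarith))).congr ?_
    filter_upwards [nhdsWithin_le_nhds hfd] with z hz
    rw [hz 1, one_mul, h00]
    simp only [sub_apply, cmB_apply, cm_sub, cm_cm]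
    have e2 : (q : ℂ) * z ^ (q - 1) * (k * (z ^ q) ^ (k - 1)) =
        ((k * q : ℕ) : ℂ) * z ^ (k * q - 1) := by
      have e3 : z ^ (k * q - 1) = z ^ (q - 1) * (z ^ q) ^ (k - 1) := by
        rw [← pow_mul, ← pow_add]
        congr 1
        obtain ⟨k', rfl⟩ : ∃ k', k = k' + 1 := ⟨k - 1, by omega⟩
        obtain ⟨q', rfl⟩ : ∃ q', q = q' + 1 := ⟨q - 1, by omega⟩
        simp only [Nat.add_sub_cancel]
        ring_nf
        omega
      rw [e3]
      push_cast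
      ring
    rw [e2]
    abel

end Vale.Agent.P247.H558.SH
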