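import Vale.Agent.P247.H558.SH.Brs

/-!
# P247, layer C: `SH1`, `SH2` for the branches of `Brs`
-/

open scoped ContDiff Topology
open Set MeasureTheory Filter Metric Asymptotics

noncomputable section

namespace Vale.Agent.P247.H558.SH

open Vale.Agent.P247.H74 Vale.Agent.P247.H74.CE Vale.Agent.P247.H574

/-- the root coordinate in a given frame -/
theorem LeadL.root {D : Data} {u : ℂ → R4} {k : ℕ} {a₁ b : R4} (h : LeadL D u k a₁ b) {a : R4}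
    (hab : Om D (u 0) a b ≠ 0) :
    ∃ (lam : ℂ) (Φ : ℂ → ℂ), lam ≠ 0 ∧ ContDiffAt ℝ 1 Φ 0 ∧ Φ 0 = 0 ∧
      HasFDerivAt Φ (lam • (ContinuousLinearMap.id ℝ ℂ)) 0 ∧
      ∀ z, (Om D (u 0) a b)⁻¹ * Om D (u 0) (u z - u 0) b = Φ z ^ k := by
  obtain ⟨lam, hlam⟩ := IsAlgClosed.exists_pow_nat_eq
    ((Om D (u 0) a b)⁻¹ * Om D (u 0) a₁ b) (Nat.pos_of_ne_zero h.k0)
  have hne : (Om D (u 0) a b)⁻¹ * Om D (u 0) a₁ b ≠ 0 := mul_ne_zero (inv_ne_zero hab) h.hab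
  refine ⟨lam, fun z => lam * Lead.zt D u k a₁ b z, ?_, contDiffAt_const.mul h.zt_c1.1, ?_, ?_, ?_⟩
  · rintro rfl
    rw [zero_pow h.k0] at hlam
    exact hne hlam.symm
  · simp only [Lead.zt_zero, mul_zero]
  · exact h.zt_c1.2.const_mul lam
  · intro z
    rw [mul_pow, hlam, h.zt_pow, p1_apply]
    have := h.hab
    field_simp

/-- the local inverse of a root coordinate -/
theorem exists_psi {Φ : ℂ → ℂ} {lam : ℂ} (hl : lam ≠ 0) (hΦ : ContDiffAt ℝ 1 Φ 0) (h0 : Φ 0 = 0)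
    (hd : HasFDerivAt Φ (lam • (ContinuousLinearMap.id ℝ ℂ)) 0) :
    ∃ ψ : ℂ → ℂ, ContDiffAt ℝ 1 ψ 0 ∧ ψ 0 = 0 ∧
      HasFDerivAt ψ (lam⁻¹ • (ContinuousLinearMap.id ℝ ℂ)) 0 ∧
      (∀ᶠ z in 𝓝 (0 : ℂ), ψ (Φ z) = z) ∧ ∀ᶠ c in 𝓝 (0 : ℂ), Φ (ψ c) = c := by
  let e : ℂ ≃L[ℝ] ℂ := ContinuousLinearEquiv.equivOfInverse (lam • (ContinuousLinearMap.id ℝ ℂ))
    (lam⁻¹ • (ContinuousLinearMap.id ℝ ℂ)) (fun z => by simp [hl]) (fun z => by simp [hl])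
  have he : (e : ℂ →L[ℝ] ℂ) = lam • (ContinuousLinearMap.id ℝ ℂ) := rfl
  have hes : (e.symm : ℂ →L[ℝ] ℂ) = lam⁻¹ • (ContinuousLinearMap.id ℝ ℂ) := rfl
  have hd' : HasFDerivAt Φ (e : ℂ →L[ℝ] ℂ) 0 := by rw [he]; exact hd
  have hn : (1 : WithTop ℕ∞) ≠ 0 := one_ne_zero
  set F := hΦ.toOpenPartialHomeomorph Φ hd' hn with hF
  have e1 : (F : ℂ → ℂ) = Φ := hΦ.toOpenPartialHomeomorph_coe hd' hn
  have e2 : (0 : ℂ) ∈ F.source := hΦ.mem_toOpenPartialHomeomorph_source hd' hn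
  have e3 : ContDiffAt ℝ 1 F.symm (Φ 0) := hΦ.to_localInverse hd' hn
  rw [h0] at e3
  have e4 : (0 : ℂ) ∈ F.target := by
    have := F.map_source e2
    rwa [e1, h0] at this
  have e5 : F.symm 0 = 0 := by
    have := F.left_inv e2
    rwa [e1, h0] at this
  refine ⟨F.symm, e3, e5, ?_, ?_, ?_⟩
  · have e8 := F.hasFDerivAt_symm (a := 0) (f' := e) e4 (by rw [e5, e1]; exact hd')
    rw [← hes]
    exact e8
  · filter_upwards [F.open_source.mem_nhds e2] with z hz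
    have := F.left_inv hz
    rwa [e1] at this
  · filter_upwards [F.open_target.mem_nhds e4] with c hc
    have := F.right_inv hc
    rwa [e1] at this

/-- a root coordinate has no zeros off the origin -/
theorem root_ne {Φ : ℂ → ℂ} {lam : ℂ} (hl : lam ≠ 0) (h0 : Φ 0 = 0)
    (hd : HasFDerivAt Φ (lam • (ContinuousLinearMap.id ℝ ℂ)) 0) :
    ∀ᶠ z in 𝓝[≠] (0 : ℂ), Φ z ≠ 0 := by
  have h1 := hd.isLittleO
  rw [isLittleO_iff] at h1
  have hlp : 0 < ‖lam‖ := norm_pos_iff.2 hl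
  have h2 := h1 (show 0 < ‖lam‖ / 2 by positivity)
  filter_upwards [nhdsWithin_le_nhds h2, ne_ev] with z h3 h4 h5
  rw [h5, h0, sub_zero, zero_sub, sub_zero, norm_neg] at h3
  have h6 : ‖(lam • (ContinuousLinearMap.id ℝ ℂ)) z‖ = ‖lam‖ * ‖z‖ := by simp
  rw [h6] at h3
  have h7 : 0 < ‖z‖ := norm_pos_iff.2 h4
  nlinarith

/-- the leading vector is unique -/
theorem LeadL.unique {D : Data} {u : ℂ → R4} {k : ℕ} {a₁ a₂ b : R4} (h₁ : LeadL D u k a₁ b)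
    (h₂ : LeadL D u k a₂ b) : a₁ = a₂ := by
  by_contra hne
  have hsub : a₁ - a₂ ≠ 0 := sub_ne_zero.2 hne
  obtain ⟨c, hc, hl⟩ := H94.cm_lower D (u 0) (a₁ - a₂) hsub
  have h3 : Cl ((k : ℤ) + 1) (fun z => cm D (u 0) (z ^ k) (a₁ - a₂)) := by
    refine (h₂.rem0.sub h₁.rem0).congr (Eventually.of_forall fun z => ?_)
    rw [cm_sub]
    abel
  obtain ⟨C, hC, hb⟩ := h3.bd.exists_pos
  rw [isBigOWith_iff] at hb
  have hs : ∀ᶠ z in 𝓝[≠] (0 : ℂ), C * ‖z‖ < c := by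
    have h1 : Tendsto (fun z : ℂ => C * ‖z‖) (𝓝 0) (𝓝 0) := by
      have : Continuous (fun z : ℂ => C * ‖z‖) := by fun_prop
      simpa using this.tendsto 0
    exact (h1.eventually_lt_const hc).filter_mono nhdsWithin_le_nhds
  obtain ⟨z, h4, h5, hz⟩ := (hb.and (hs.and ne_ev)).exists
  have h6 := (hl (z ^ k)).trans h4
  have hzp : 0 < ‖z‖ := norm_pos_iff.2 hz
  rw [norm_pow, norm_zpow, norm_norm, zpow_add_one₀ hzp.ne', zpow_natCast] at h6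
  have h7 : 0 < ‖z‖ ^ k := pow_pos hzp k
  nlinarith

/-- the order is unique -/
theorem LeadL.order_unique {D : Data} {u : ℂ → R4} {k k' : ℕ} {a₁ a₂ b : R4}
    (h₁ : LeadL D u k a₁ b) (h₂ : LeadL D u k' a₂ b) : k = k' := by
  have key : ∀ {k k' : ℕ} {a₁ a₂ : R4}, LeadL D u k a₁ b → LeadL D u k' a₂ b → ¬ k < k' := by
    intro k k' a₁ a₂ h₁ h₂ hlt
    obtain ⟨c, hc, hl⟩ := H94.cm_lower D (u 0) a₁ (frame_ne D (u 0) a₁ b h₁.hab)
    have h3 : Cl ((k : ℤ) + 1) (fun z => cm D (u 0) (z ^ k) a₁) := by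
      refine ((h₂.sub_cl.mono (m' := (k : ℤ) + 1) (by omega)).sub h₁.rem0).congr
        (Eventually.of_forall fun z => ?_)
      abel
    obtain ⟨C, hC, hb⟩ := h3.bd.exists_pos
    rw [isBigOWith_iff] at hb
    have hs : ∀ᶠ z in 𝓝[≠] (0 : ℂ), C * ‖z‖ < c := by
      have h1 : Tendsto (fun z : ℂ => C * ‖z‖) (𝓝 0) (𝓝 0) := by
        have : Continuous (fun z : ℂ => C * ‖z‖) := by fun_prop
        simpa using this.tendsto 0
      exact (h1.eventually_lt_const hc).filter_mono nhdsWithin_le_nhds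
    obtain ⟨z, h4, h5, hz⟩ := (hb.and (hs.and ne_ev)).exists
    have h6 := (hl (z ^ k)).trans h4
    have hzp : 0 < ‖z‖ := norm_pos_iff.2 hz
    rw [norm_pow, norm_zpow, norm_norm, zpow_add_one₀ hzp.ne', zpow_natCast] at h6
    have h7 : 0 < ‖z‖ ^ k := pow_pos hzp k
    nlinarith
  have h3 := key h₁ h₂
  have h4 := key h₂ h₁
  omega

/-- `SH1`, `SH2` -/
theorem sheet_brs {D : Data} {C : Set R4} {x : R4} {N : ℕ} {u : Fin N → ℂ → R4} {ε : ℝ}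
    (hB : Brs D C x N u ε) {a b : R4} (hab : Om D x a b ≠ 0) {l j : Fin N} {k k' : ℕ}
    {a₁ a₂ : R4} (hu : LeadL D (u l) k a₁ b) (hv : LeadL D (u j) k' a₂ b) {q q' K : ℕ}
    (hq : 1 ≤ q) (hq' : 1 ≤ q') (hK : k * q = K) (hK' : k' * q' = K) {Φ Ψ ψ : ℂ → ℂ} {lam : ℂ}
    (hlam : lam ≠ 0) (hΦ : ContDiffAt ℝ 1 Φ 0) (hΦ0 : Φ 0 = 0)
    (hΦd : HasFDerivAt Φ (lam • (ContinuousLinearMap.id ℝ ℂ)) 0)
    (hΦK : ∀ᶠ z in 𝓝 (0 : ℂ), (Om D x a b)⁻¹ * Om D x (u l (z ^ q) - x) b = Φ z ^ K)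
    (hΨ0 : Ψ 0 = 0)
    (hΨK : ∀ᶠ z in 𝓝 (0 : ℂ), (Om D x a b)⁻¹ * Om D x (u j (z ^ q') - x) b = Ψ z ^ K)
    (hψ : ContDiffAt ℝ 1 ψ 0) (hψ0 : ψ 0 = 0) (hψΨ : ∀ᶠ c in 𝓝 (0 : ℂ), Ψ (ψ c) = c)
    {w : ℂ} (hw : w ^ K = 1)
    (hlj : l ≠ j ∨ (l = j ∧ q = 1 ∧ q' = 1 ∧ Φ = Ψ ∧ w ≠ 1)) :
    ∃ m : ℕ, K ≤ m ∧ (l = j → K + 1 ≤ m) ∧
      (∀ᶠ z in 𝓝 (0 : ℂ), ContinuousAt (fun z =>
        (Om D x a b)⁻¹ * Om D x a (u l (z ^ q) - u j (ψ (w * Φ z) ^ q'))) z) ∧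
      ∀ᶠ r in 𝓝[>] (0 : ℝ), HasWinding (fun z =>
        (Om D x a b)⁻¹ * Om D x a (u l (z ^ q) - u j (ψ (w * Φ z) ^ q'))) 0 r m := by
  have hK1 : 1 ≤ K := by rw [← hK]; exact Nat.mul_pos hu.hk (by omega)
  have hK0 : K ≠ 0 := by omega
  have hw0 : w ≠ 0 := by
    rintro rfl
    rw [zero_pow hK0] at hw
    exact zero_ne_one hw
  have hU : LeadL D (fun z => u l (z ^ q)) K a₁ b := by
    have := hu.pow hq
    rwa [hK] at this
  have hV : LeadL D (fun z => u j (z ^ q')) K a₂ b := by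
    have := hv.pow hq'
    rwa [hK'] at this
  have hU0 : (fun z => u l (z ^ q)) 0 = x := by
    show u l (0 ^ q) = x
    rw [zero_pow (by omega), hB.zero]
  have hV0 : (fun z => u j (z ^ q')) 0 = x := by
    show u j (0 ^ q') = x
    rw [zero_pow (by omega), hB.zero]
  set σ : ℂ → ℂ := fun z => ψ (w * Φ z) with hσdef
  have hwΦ : ContDiffAt ℝ 1 (fun z => w * Φ z) 0 := contDiffAt_const.mul hΦ
  have hwΦ0 : w * Φ 0 = 0 := by rw [hΦ0, mul_zero]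
  have hσ : ContDiffAt ℝ 1 σ 0 := by
    refine ContDiffAt.comp (f := fun z => w * Φ z) 0 ?_ hwΦ
    rw [hwΦ0]; exact hψ
  have hσ0 : σ 0 = 0 := by rw [hσdef]; simp only [hΦ0, mul_zero, hψ0]
  have hwt : Tendsto (fun z => w * Φ z) (𝓝 0) (𝓝 0) := by
    have := hwΦ.continuousAt
    unfold ContinuousAt at this
    simp only [hΦ0, mul_zero] at this
    exact this
  have hσt : Tendsto σ (𝓝 0) (𝓝 0) := by
    have := hσ.continuousAt
    unfold ContinuousAt at this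
    rwa [hσ0] at this
  have hΨσ : ∀ᶠ z in 𝓝 (0 : ℂ), Ψ (σ z) = w * Φ z := hwt.eventually hψΨ
  have hΦn := root_ne hlam hΦ0 hΦd
  have hσn : ∀ᶠ z in 𝓝[≠] (0 : ℂ), σ z ≠ 0 := by
    filter_upwards [hΦn, nhdsWithin_le_nhds hΨσ] with z h1 h2 h3
    rw [h3, hΨ0] at h2
    exact mul_ne_zero hw0 h1 h2.symm
  have hm : ∀ᶠ z in 𝓝 (0 : ℂ), Om D x (u l (z ^ q) - x) b = Om D x (u j (σ z ^ q') - x) b := by
    filter_upwards [hΦK, hσt.eventually hΨK, hΨσ] with z h1 h2 h3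
    rw [h3, mul_pow, hw, one_mul, ← h1] at h2
    exact (mul_left_cancel₀ (inv_ne_zero hab) h2).symm
  have hb : ∀ᶠ z in 𝓝 (0 : ℂ), z ^ q ∈ ball (0 : ℂ) 2 ∧ σ z ^ q' ∈ ball (0 : ℂ) 2 := by
    have t1 : Tendsto (fun z : ℂ => z ^ q) (𝓝 0) (𝓝 0) := by
      have h1 : Continuous (fun z : ℂ => z ^ q) := by fun_prop
      have := h1.tendsto 0
      rwa [zero_pow (by omega)] at this
    have t2 : Tendsto (fun z : ℂ => σ z ^ q') (𝓝 0) (𝓝 0) := by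
      have := hσt.pow q'
      rwa [zero_pow (by omega)] at this
    exact (t1.eventually (ball_mem_nhds 0 (by norm_num))).and
      (t2.eventually (ball_mem_nhds 0 (by norm_num)))
  have hne : ∀ᶠ z in 𝓝[≠] (0 : ℂ), u l (z ^ q) ≠ u j (σ z ^ q') := by
    filter_upwards [nhdsWithin_le_nhds hb, ne_ev, hΦn, nhdsWithin_le_nhds hΨσ] with z h1 h2 h3 h4 h5
    rcases hB.inj l j _ h1.1 _ h1.2 h5 with h6 | h6
    · rcases hlj with h7 | ⟨_, rfl, rfl, rfl, hw1⟩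
      · exact h7 h6.1
      · have h8 : z = σ z := by simpa using h6.2
        rw [← h8] at h4
        have h9 : (1 - w) * Φ z = 0 := by linear_combination h4
        rcases mul_eq_zero.1 h9 with h10 | h10
        · exact hw1 (by linear_combination -h10)
        · exact h3 h10
    · exact pow_ne_zero q h2 h6.1
  have h00 : (fun z => u l (z ^ q)) 0 = (fun z => u j (z ^ q')) 0 := by rw [hU0, hV0]
  have hV1 : u j (0 ^ q') = x := hV0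
  obtain ⟨m, h1, h2, h3, h4⟩ := sheet_wind (σ := σ) (a := a) hU hV h00 (by rw [hV1]; exact hab)
    hσ hσ0 hσn (by rw [hV1]; exact hm) hne
  rw [hV1] at h3 h4
  refine ⟨m, h1, ?_, h3, h4⟩
  intro hlj'
  subst hlj'
  apply h2
  have hkk : k = k' := hu.order_unique hv
  subst hkk
  exact hu.unique hv

end Vale.Agent.P247.H558.SH
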