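import Vale.Agent.P247.H520.Trv
import Vale.Agent.P247.H74.CE.Lc

/-!
# P247, layer C: leading term of a branch which is `J`-holomorphic only near the origin
(local form of `H74/CE/La.lean`)
-/

open scoped ContDiff Topology
open Set MeasureTheory Filter Metric Asymptotics

noncomputable section

namespace Vale.Agent.P247.H558.SH

open Vale.Agent.P247.H74 Vale.Agent.P247.H74.CE Vale.Agent.P247.H574

/-- the leading term of `u` at the origin -/
structure LeadL (D : Data) (u : ℂ → R4) (k : ℕ) (a b : R4) : Prop where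
  c1 : ContDiffAt ℝ 1 u 0
  hJ : ∀ᶠ z in 𝓝 (0 : ℂ), fderiv ℝ u z Complex.I = D.J (u z) (fderiv ℝ u z 1)
  hk : 1 ≤ k
  hab : Om D (u 0) a b ≠ 0
  rem0 : Cl ((k : ℤ) + 1) (fun z => u z - u 0 - cm D (u 0) (z ^ k) a)
  rem1 : Cl (k : ℤ) (fun z => fderiv ℝ u z 1 - cm D (u 0) (k * z ^ (k - 1)) a)

/-- the expansion from the `o` form -/
theorem leadL_of_littleO {D : Data} {u : ℂ → R4} {k : ℕ} {a b : R4} (hu : ContDiff ℝ ∞ u)
    (hJ : ∀ᶠ z in 𝓝 (0 : ℂ), fderiv ℝ u z Complex.I = D.J (u z) (fderiv ℝ u z 1))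
    (hk : 1 ≤ k) (hb : Om D (u 0) a b ≠ 0)
    (h : (fun z => u z - u 0 - cm D (u 0) (z ^ k) a) =o[𝓝 0] (fun z : ℂ => ‖z‖ ^ k)) :
    LeadL D u k a b := by
  have hr : rem D u 0 k a =o[𝓝 0] (fun z : ℂ => ‖z - 0‖ ^ k) := by
    refine (h.congr_left fun z => ?_).congr_right fun z => ?_
    · simp [rem]
    · simp
  have hj := H94.rem_bounds D hu 0 k a hr
  refine ⟨(hu.of_le (by simp)).contDiffAt, hJ, hk, hb, ?_, ?_⟩
  · have hs : ContDiff ℝ ∞ (rem D u 0 k a) := H94.smooth_rem D hu 0 k a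
    have e0 : (fun z => u z - u 0 - cm D (u 0) (z ^ k) a) = rem D u 0 k a := by
      funext z
      simp [rem]
    rw [e0]
    refine ⟨Eventually.of_forall fun z => (hs.of_le (by simp)).contDiffAt, ?_, ?_⟩
    · have h0 := (hj 0 (by omega)).mono (nhdsWithin_le_nhds (s := {(0 : ℂ)}ᶜ))
      have h1 : (rem D u 0 k a) =O[𝓝[≠] 0] fun z => iteratedFDeriv ℝ 0 (rem D u 0 k a) z :=
        IsBigO.of_bound 1 (Eventually.of_forall fun z => by
          rw [norm_iteratedFDeriv_zero, one_mul])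
      refine h1.trans (h0.congr' (EventuallyEq.refl _ _) (Eventually.of_forall fun z => ?_))
      simp only [sub_zero]
      exact_mod_cast (zpow_natCast ‖z‖ (k + 1)).symm
    · have h0 := (hj 1 (by omega)).mono (nhdsWithin_le_nhds (s := {(0 : ℂ)}ᶜ))
      have h1 : (fderiv ℝ (rem D u 0 k a)) =O[𝓝[≠] 0]
          fun z => iteratedFDeriv ℝ 1 (rem D u 0 k a) z :=
        IsBigO.of_bound 1 (Eventually.of_forall fun z => by
          rw [norm_iteratedFDeriv_one, one_mul])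
      refine h1.trans (h0.congr' (EventuallyEq.refl _ _) (Eventually.of_forall fun z => ?_))
      simp only [sub_zero, add_sub_cancel_right]
      rw [zpow_natCast]
      rfl
  · have hs : ContDiff ℝ ∞ (rem D u 0 k a) := H94.smooth_rem D hu 0 k a
    have hs1 : ContDiff ℝ ∞ (fderiv ℝ (rem D u 0 k a)) := hs.fderiv_right (m := ∞) (by simp)
    have e0 : (fun z => fderiv ℝ u z 1 - cm D (u 0) (k * z ^ (k - 1)) a) =
        fun z => fderiv ℝ (rem D u 0 k a) z 1 := by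
      funext z
      rw [rem_fderiv D hu]
    rw [e0]
    refine ⟨Eventually.of_forall fun z => ((hs1.clm_apply contDiff_const).of_le
      (by simp)).contDiffAt, ?_, ?_⟩
    · have h0 := (hj 1 (by omega)).mono (nhdsWithin_le_nhds (s := {(0 : ℂ)}ᶜ))
      have h1 : (fun z => fderiv ℝ (rem D u 0 k a) z 1) =O[𝓝[≠] 0]
          fun z => iteratedFDeriv ℝ 1 (rem D u 0 k a) z :=
        IsBigO.of_bound 1 (Eventually.of_forall fun z => by
          rw [norm_iteratedFDeriv_one, one_mul]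
          simpa using (fderiv ℝ (rem D u 0 k a) z).le_opNorm 1)
      refine h1.trans (h0.congr' (EventuallyEq.refl _ _) (Eventually.of_forall fun z => ?_))
      simp only [sub_zero]
      rw [zpow_natCast]
      rfl
    · have h0 := (hj 2 (by omega)).mono (nhdsWithin_le_nhds (s := {(0 : ℂ)}ᶜ))
      have h1 : (fderiv ℝ (fun z => fderiv ℝ (rem D u 0 k a) z 1)) =O[𝓝[≠] 0]
          fun z => iteratedFDeriv ℝ 2 (rem D u 0 k a) z := by
        refine IsBigO.of_bound 1 (Eventually.of_forall fun z => ?_)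
        have e1 : HasFDerivAt (fun z => fderiv ℝ (rem D u 0 k a) z 1)
            ((fderiv ℝ (fderiv ℝ (rem D u 0 k a)) z).flip 1) z := by
          have := ((hs1.differentiable (by simp)) z).hasFDerivAt.clm_apply
            (hasFDerivAt_const (1 : ℂ) z)
          simpa using this
        rw [e1.fderiv, one_mul]
        refine ContinuousLinearMap.opNorm_le_bound _ (norm_nonneg _) fun ξ => ?_
        rw [ContinuousLinearMap.flip_apply]
        have e2 : ‖iteratedFDeriv ℝ 2 (rem D u 0 k a) z‖ = ‖fderiv ℝ (fderiv ℝ (rem D u 0 k a)) z‖ := by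
          rw [← norm_iteratedFDeriv_fderiv (n := 1), norm_iteratedFDeriv_one]
        rw [e2]
        calc ‖fderiv ℝ (fderiv ℝ (rem D u 0 k a)) z ξ 1‖
            ≤ ‖fderiv ℝ (fderiv ℝ (rem D u 0 k a)) z ξ‖ * ‖(1 : ℂ)‖ :=
              ContinuousLinearMap.le_opNorm _ _
          _ ≤ _ := by
            rw [norm_one, mul_one]
            exact ContinuousLinearMap.le_opNorm _ _
      refine h1.trans (h0.congr' (EventuallyEq.refl _ _) (Eventually.of_forall fun z => ?_))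
      simp only [sub_zero]
      rw [show (k : ℤ) - 1 = ((k - 1 : ℕ) : ℤ) by push_cast [hk]; ring, zpow_natCast]
      congr 1

namespace LeadL

variable {D : Data} {u : ℂ → R4} {k : ℕ} {a b : R4}

theorem k0 (h : LeadL D u k a b) : k ≠ 0 := by have := h.hk; omega

theorem k0c (h : LeadL D u k a b) : (k : ℂ) ≠ 0 := by exact_mod_cast h.k0

theorem cont (h : LeadL D u k a b) : ContinuousAt u 0 := h.c1.continuousAt

theorem diff (h : LeadL D u k a b) : ∀ᶠ z in 𝓝 (0 : ℂ), DifferentiableAt ℝ u z :=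
  (h.c1.eventually (by simp)).mono fun _ hz => hz.differentiableAt (by simp)

theorem sub_cl (h : LeadL D u k a b) : Cl (k : ℤ) (fun z => u z - u 0) := by
  have h1 : Cl (k : ℤ) (fun z : ℂ => (cmB D (u 0)).flip a (z ^ k)) := by
    have := (Cl.zpow (k : ℤ)).clm ((cmB D (u 0)).flip a)
    simpa only [zpow_natCast] using this
  refine ((h.rem0.mono (m' := (k : ℤ)) (by omega)).add h1).congr (Eventually.of_forall fun z => ?_)
  simp [cmB_apply]

theorem T_cl (h : LeadL D u k a b) : Cl ((k : ℤ) - 1) (fun z => fderiv ℝ u z 1) := by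
  have h1 : Cl ((k : ℤ) - 1) (fun z : ℂ => ((k : ℝ) • (cmB D (u 0)).flip a) (z ^ ((k : ℤ) - 1))) :=
    (Cl.zpow ((k : ℤ) - 1)).clm ((k : ℝ) • (cmB D (u 0)).flip a)
  refine ((h.rem1.mono (m' := (k : ℤ) - 1) (by omega)).add h1).congr
    (Eventually.of_forall fun z => ?_)
  have e1 : z ^ ((k : ℤ) - 1) = z ^ (k - 1) := by
    rw [show (k : ℤ) - 1 = ((k - 1 : ℕ) : ℤ) by push_cast [h.hk]; ring, zpow_natCast]
  have e2 : ((k : ℂ) * z ^ (k - 1)) = (k : ℝ) • z ^ (k - 1) := by simp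
  rw [e1, e2]
  simp only [← cmB_apply, smul_apply, ContinuousLinearMap.flip_apply, map_smul]
  abel

theorem T_eq (h : LeadL D u k a b) {z : ℂ} (hz : z ≠ 0) :
    fderiv ℝ u z 1 = cm D (u z) (k * z ^ (k - 1)) (Lead.uh D u k z) := by
  have h1 : (k * z ^ (k - 1) : ℂ) ≠ 0 := mul_ne_zero h.k0c (pow_ne_zero _ hz)
  rw [Lead.uh, cm_cm, mul_inv_cancel₀ h1, cm_one]

theorem uh_cl (h : LeadL D u k a b) : Cl 1 (fun z => Lead.uh D u k z - a) := by
  have hq : Cl (1 - (k : ℤ)) (fun z : ℂ => ((k * z ^ (k - 1) : ℂ)⁻¹)) := by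
    have h1 : Cl (1 - (k : ℤ)) (fun z : ℂ => ((k : ℝ)⁻¹ • ContinuousLinearMap.id ℝ ℂ)
      (z ^ (1 - (k : ℤ)))) := (Cl.zpow (1 - (k : ℤ))).clm _
    refine h1.congr (Eventually.of_forall fun z => ?_)
    have e1 : z ^ (1 - (k : ℤ)) = (z ^ (k - 1))⁻¹ := by
      rw [show 1 - (k : ℤ) = -((k - 1 : ℕ) : ℤ) by push_cast [h.hk]; ring, zpow_neg, zpow_natCast]
    rw [e1, mul_inv]
    simp
  have hJ : Cl (k : ℤ) (fun z => cmB D (u z) - cmB D (u 0)) :=
    h.sub_cl.left ((cmB_smooth D).contDiffAt.of_le (by simp)) (by have := h.hk; omega)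
  -- first term
  have h1 : Cl ((k : ℤ) + (1 - (k : ℤ)) + ((k : ℤ) - 1))
      (fun z => (cmB D (u z) - cmB D (u 0)) ((k * z ^ (k - 1) : ℂ)⁻¹) (fderiv ℝ u z 1)) := by
    have e1 := (hJ.bil (ContinuousLinearMap.id ℝ (ℂ →L[ℝ] R4 →L[ℝ] R4)) hq)
    exact e1.bil (ContinuousLinearMap.id ℝ (R4 →L[ℝ] R4)) h.T_cl
  -- second term
  have h2 : Cl ((1 - (k : ℤ)) + (k : ℤ)) (fun z => cmB D (u 0) ((k * z ^ (k - 1) : ℂ)⁻¹)
      (fderiv ℝ u z 1 - cm D (u 0) (k * z ^ (k - 1)) a)) :=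
    hq.bil (cmB D (u 0)) h.rem1
  refine ((h1.mono (m' := 1) (by have := h.hk; omega)).add
    (h2.mono (m' := 1) (by omega))).congr ?_
  filter_upwards [ne_ev] with z hz
  have h3 : (k * z ^ (k - 1) : ℂ) ≠ 0 := mul_ne_zero h.k0c (pow_ne_zero _ hz)
  simp only [sub_apply, cmB_apply, cm_sub, cm_cm, Lead.uh, inv_mul_cancel₀ h3, cm_one]
  abel

/-- the coordinates of `u` -/
theorem p1_u (h : LeadL D u k a b) (z : ℂ) : p1 D (u 0) a b (u z - u 0) =
    z ^ k + p1 D (u 0) a b (u z - u 0 - cm D (u 0) (z ^ k) a) := by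
  conv_rhs => rw [map_sub, p1_a D (u 0) a b h.hab]
  ring

theorem u2_cl (h : LeadL D u k a b) :
    Cl ((k : ℤ) + 1) (fun z => p2 D (u 0) a b (u z - u 0)) := by
  refine (h.rem0.clm (p2 D (u 0) a b)).congr (Eventually.of_forall fun z => ?_)
  rw [map_sub, p2_a, sub_zero]

theorem zt_pow (h : LeadL D u k a b) (z : ℂ) :
    Lead.zt D u k a b z ^ k = p1 D (u 0) a b (u z - u 0) := by
  rw [Lead.zt, mul_pow, Complex.cpow_nat_inv_pow _ h.k0]
  rcases eq_or_ne z 0 with rfl | hz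
  · simp [zero_pow h.k0]
  · rw [h.p1_u z]
    rw [zpow_neg, zpow_natCast]
    have := pow_ne_zero k hz
    field_simp

theorem zt_cl (h : LeadL D u k a b) : Cl 2 (fun z => Lead.zt D u k a b z - z) := by
  set ρ : ℂ → ℂ := fun z => p1 D (u 0) a b (u z - u 0 - cm D (u 0) (z ^ k) a) * z ^ (-(k : ℤ))
    with hρ
  have h1 : Cl ((k : ℤ) + 1 + (-(k : ℤ))) ρ :=
    (h.rem0.clm (p1 D (u 0) a b)).bil (ContinuousLinearMap.mul ℝ ℂ) (Cl.zpow (-(k : ℤ)))
  have h2 : Cl 1 (fun z => ρ z - 0) := by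
    simpa using h1.mono (m' := 1) (by omega)
  have hΦ : ContDiffAt ℝ 1 (fun w : ℂ => (1 + w) ^ ((k : ℂ)⁻¹)) 0 := by
    have e1 : AnalyticAt ℂ (fun w : ℂ => (1 + w) ^ ((k : ℂ)⁻¹)) 0 := by
      refine AnalyticAt.cpow (by fun_prop) (by fun_prop) ?_
      simp
    exact (e1.contDiffAt (n := 1)).restrict_scalars ℝ
  have h3 := h2.left hΦ le_rfl
  have h4 : Cl (1 + 1) (fun z : ℂ => z * ((1 + ρ z) ^ ((k : ℂ)⁻¹) - (1 + 0) ^ ((k : ℂ)⁻¹))) := by
    have := (Cl.zpow 1).bil (ContinuousLinearMap.mul ℝ ℂ) h3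
    simpa using this
  refine (h4.mono (m' := 2) (by norm_num)).congr (Eventually.of_forall fun z => ?_)
  simp only [add_zero, Complex.one_cpow, Lead.zt, hρ]
  ring

theorem zt_c1 (h : LeadL D u k a b) : ContDiffAt ℝ 1 (Lead.zt D u k a b) 0 ∧
    HasFDerivAt (Lead.zt D u k a b) (ContinuousLinearMap.id ℝ ℂ) 0 := by
  obtain ⟨h1, h2⟩ := h.zt_cl.contDiffAt (by simp [Lead.zt_zero])
  have e : (fun z => (Lead.zt D u k a b z - z) + z) = Lead.zt D u k a b := by
    funext z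
    ring
  constructor
  · have := h1.add contDiffAt_id
    rw [← e]
    exact this
  · have := h2.add (hasFDerivAt_id (𝕜 := ℝ) (0 : ℂ))
    rw [zero_add] at this
    rw [← e]
    exact this

/-- the inverse of `zt` -/
theorem exists_inv (h : LeadL D u k a b) : ∃ (ξ : ℂ → ℂ) (δ : ℝ), 0 < δ ∧ ξ 0 = 0 ∧
    ContDiffOn ℝ 1 ξ (ball 0 δ) ∧ HasFDerivAt ξ (ContinuousLinearMap.id ℝ ℂ) 0 ∧
    (∀ c ∈ ball (0 : ℂ) δ, Lead.zt D u k a b (ξ c) = c) ∧
    (∀ᶠ z in 𝓝 (0 : ℂ), ξ (Lead.zt D u k a b z) = z) := by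
  obtain ⟨h1, h2⟩ := h.zt_c1
  have h2' : HasFDerivAt (Lead.zt D u k a b)
    ((ContinuousLinearEquiv.refl ℝ ℂ : ℂ ≃L[ℝ] ℂ) : ℂ →L[ℝ] ℂ) 0 := h2
  have hn : (1 : WithTop ℕ∞) ≠ 0 := one_ne_zero
  set e := h1.toOpenPartialHomeomorph (Lead.zt D u k a b) h2' hn with he
  have e1 : (e : ℂ → ℂ) = Lead.zt D u k a b := h1.toOpenPartialHomeomorph_coe h2' hn
  have e2 : (0 : ℂ) ∈ e.source := h1.mem_toOpenPartialHomeomorph_source h2' hn
  have e3 : ContDiffAt ℝ 1 e.symm (Lead.zt D u k a b 0) := h1.to_localInverse h2' hn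
  rw [Lead.zt_zero] at e3
  have e4 : (0 : ℂ) ∈ e.target := by
    have := e.map_source e2
    rwa [e1, Lead.zt_zero] at this
  have e5 : e.symm 0 = 0 := by
    have := e.left_inv e2
    rwa [e1, Lead.zt_zero] at this
  have e6 : ∀ᶠ c in 𝓝 (0 : ℂ), ContDiffAt ℝ 1 e.symm c ∧ c ∈ e.target :=
    (e3.eventually (by simp)).and (e.open_target.mem_nhds e4)
  obtain ⟨δ, hδ, e7⟩ := Metric.eventually_nhds_iff_ball.1 e6
  refine ⟨e.symm, δ, hδ, e5, fun c hc => (e7 c hc).1.contDiffWithinAt, ?_, fun c hc => ?_, ?_⟩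
  · have e8 := e.hasFDerivAt_symm (a := 0) (f' := ContinuousLinearEquiv.refl ℝ ℂ) e4
      (by rw [e5, e1]; exact h2')
    exact e8
  · have := e.right_inv (e7 c hc).2
    rwa [e1] at this
  · filter_upwards [e.open_source.mem_nhds e2] with z hz
    have := e.left_inv hz
    rwa [e1] at this

end LeadL

end Vale.Agent.P247.H558.SH
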