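import Vale.Agent.P247.H558.SH.LeadL

/-!
# P247, layer C: the difference of two sheets (`SH`)
-/

open scoped ContDiff Topology
open Set MeasureTheory Filter Metric Asymptotics

noncomputable section

namespace Vale.Agent.P247.H558.SH

open Vale.Agent.P247.H74 Vale.Agent.P247.H74.CE Vale.Agent.P247.H574

variable {D : Data} {u v : ℂ → R4} {k : ℕ} {a b : R4} {σ : ℂ → ℂ}

/-- complex linearity of the derivative -/
theorem fderiv_cmL {v : ℂ → R4} {y : ℂ}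
    (h : fderiv ℝ v y Complex.I = D.J (v y) (fderiv ℝ v y 1)) (c : ℂ) :
    fderiv ℝ v y c = cm D (v y) c (fderiv ℝ v y 1) := by
  have : c = c.re • (1 : ℂ) + c.im • Complex.I := by
    apply Complex.ext <;> simp
  conv_lhs => rw [this]
  rw [map_add, map_smul, map_smul, h]
  rfl

/-- `Om` kills the tangent -/
theorem Om_T (h : LeadL D v k a b) {y : ℂ} (hy : y ≠ 0)
    (hJ : fderiv ℝ v y Complex.I = D.J (v y) (fderiv ℝ v y 1)) (η : ℂ) :
    OmL D (v y) (Lead.uh D v k y) (fderiv ℝ v y η) = 0 := by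
  rw [OmL_apply, fderiv_cmL hJ, h.T_eq hy, cm_cm, Om_cm, Om_self, mul_zero]

theorem P_cl (h : LeadL D v k a b) (hσ : ContDiffAt ℝ 1 σ 0)
    (h0 : σ 0 = 0) (hne : ∀ᶠ z in 𝓝[≠] (0 : ℂ), σ z ≠ 0) :
    Cl 1 (fun z => OmL D (v (σ z)) (Lead.uh D v k (σ z)) - OmL D (v 0) a) := by
  have hA : Cl (k : ℤ) (fun z => OmL D (v (σ z)) - OmL D (v 0)) := by
    have e1 : Cl (k : ℤ) (fun z => OmL D (v z) - OmL D (v 0)) :=
      h.sub_cl.left ((OmL_smooth D).contDiffAt.of_le (by simp)) (by have := h.hk; omega)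
    exact e1.right (by have := h.hk; omega) hσ h0 hne
  have hB : Cl 1 (fun z => Lead.uh D v k (σ z) - a) := h.uh_cl.right le_rfl hσ h0 hne
  have hB' : Cl 0 (fun z => Lead.uh D v k (σ z)) := by
    refine ((hB.mono (m' := 0) (by norm_num)).add (Cl.const a)).congr
      (Eventually.of_forall fun z => ?_)
    abel
  have e1 : Cl ((k : ℤ) + 0) (fun z => (OmL D (v (σ z)) - OmL D (v 0)) (Lead.uh D v k (σ z))) :=
    hA.bil (ContinuousLinearMap.id ℝ (R4 →L[ℝ] R4 →L[ℝ] ℂ)) hB'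
  have e2 : Cl 1 (fun z => OmL D (v 0) (Lead.uh D v k (σ z) - a)) := hB.clm (OmL D (v 0))
  refine ((e1.mono (m' := 1) (by have := h.hk; omega)).add e2).congr
    (Eventually.of_forall fun z => ?_)
  simp only [map_sub, sub_apply]
  abel

theorem tendsto_P (h : LeadL D v k a b) (hσ : ContDiffAt ℝ 1 σ 0)
    (h0 : σ 0 = 0) (hne : ∀ᶠ z in 𝓝[≠] (0 : ℂ), σ z ≠ 0) :
    Tendsto (fun z => OmL D (v (σ z)) (Lead.uh D v k (σ z))) (𝓝[≠] 0)
      (𝓝 (OmL D (v 0) a)) := by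
  have := ((P_cl h hσ h0 hne).tendsto le_rfl).add_const (OmL D (v 0) a)
  simpa using this

/-- the function to which the similarity principle applies -/
def Wf (D : Data) (u v : ℂ → R4) (k : ℕ) (σ : ℂ → ℂ) (z : ℂ) : ℂ :=
  OmL D (v (σ z)) (Lead.uh D v k (σ z)) (u z - v (σ z))

theorem W_deriv (h : LeadL D v k a b) (hu : ContDiffAt ℝ 1 u 0)
    (huJ : ∀ᶠ z in 𝓝 (0 : ℂ), fderiv ℝ u z Complex.I = D.J (u z) (fderiv ℝ u z 1))
    (huv : u 0 = v 0) (hσ : ContDiffAt ℝ 1 σ 0)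
    (h0 : σ 0 = 0) (hne : ∀ᶠ z in 𝓝[≠] (0 : ℂ), σ z ≠ 0) :
    ∃ C, ∀ᶠ z in 𝓝[≠] (0 : ℂ), ‖dbar (Wf D u v k σ) z‖ ≤ C * ‖u z - v (σ z)‖ := by
  have hσt : Tendsto σ (𝓝 0) (𝓝 0) := by
    have := hσ.continuousAt
    unfold ContinuousAt at this
    rwa [h0] at this
  have hσd : ∀ᶠ z in 𝓝[≠] (0 : ℂ), DifferentiableAt ℝ σ z :=
    ((hσ.eventually (by simp)).filter_mono nhdsWithin_le_nhds).mono fun z hz =>
      hz.differentiableAt (by simp)
  have hud : ∀ᶠ z in 𝓝[≠] (0 : ℂ), DifferentiableAt ℝ u z :=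
    ((hu.eventually (by simp)).filter_mono nhdsWithin_le_nhds).mono fun z hz =>
      hz.differentiableAt (by simp)
  have hvd : ∀ᶠ z in 𝓝[≠] (0 : ℂ), DifferentiableAt ℝ v (σ z) :=
    (hσt.eventually h.diff).filter_mono nhdsWithin_le_nhds
  have hvJ : ∀ᶠ z in 𝓝[≠] (0 : ℂ), fderiv ℝ v (σ z) Complex.I =
      D.J (v (σ z)) (fderiv ℝ v (σ z) 1) :=
    (hσt.eventually h.hJ).filter_mono nhdsWithin_le_nhds
  -- bounds for the coefficients
  have hP := P_cl h hσ h0 hne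
  set P : ℂ → R4 →L[ℝ] ℂ := fun z => OmL D (v (σ z)) (Lead.uh D v k (σ z)) with hPdef
  have bP : ∃ K, ∀ᶠ z in 𝓝[≠] (0 : ℂ), ‖fderiv ℝ P z‖ ≤ K := by
    have e1 := hP.dbd
    rw [sub_self] at e1
    obtain ⟨K, hK⟩ := e1.bound
    refine ⟨K, hK.mono fun z hz => ?_⟩
    rw [fderiv_sub_const] at hz
    simpa using hz
  have bO : ∃ K, ∀ᶠ z in 𝓝[≠] (0 : ℂ), ‖P z‖ ≤ K :=
    ⟨_, (tendsto_P h hσ h0 hne).norm.eventually_le_const (lt_add_one _)⟩
  have bT : ∃ K, ∀ᶠ z in 𝓝[≠] (0 : ℂ), ‖fderiv ℝ u z 1‖ ≤ K := by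
    have h3 : ContinuousAt (fderiv ℝ u) 0 := (hu.fderiv_right (m := 0) (by simp)).continuousAt
    have h4 : ContinuousAt (fun z => fderiv ℝ u z 1) 0 := h3.clm_apply continuousAt_const
    have := h4.tendsto.mono_left (nhdsWithin_le_nhds (s := {(0 : ℂ)}ᶜ))
    exact ⟨_, this.norm.eventually_le_const (lt_add_one _)⟩
  have bJ : ∃ K, 0 ≤ K ∧ ∀ᶠ z in 𝓝[≠] (0 : ℂ),
      ‖D.J (u z) - D.J (v (σ z))‖ ≤ K * ‖u z - v (σ z)‖ := by
    obtain ⟨K, t, ht, hK⟩ :=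
      ((D.J_smooth.contDiffAt (x := v 0)).of_le (by simp)).exists_lipschitzOnWith
    refine ⟨K, K.2, ?_⟩
    have e1 : ∀ᶠ z in 𝓝 (0 : ℂ), u z ∈ t := hu.continuousAt.eventually (by rwa [huv])
    have e2 : ∀ᶠ z in 𝓝 (0 : ℂ), v (σ z) ∈ t := hσt.eventually (h.cont.eventually ht)
    filter_upwards [nhdsWithin_le_nhds e1, nhdsWithin_le_nhds e2] with z h1 h2
    simpa [dist_eq_norm] using hK.dist_le_mul _ h1 _ h2
  obtain ⟨KP, bP⟩ := bP
  obtain ⟨KO, bO⟩ := bO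
  obtain ⟨KT, bT⟩ := bT
  obtain ⟨KJ, hKJ, bJ⟩ := bJ
  refine ⟨KP + KO * (KJ * KT), ?_⟩
  filter_upwards [bP, bO, bT, bJ, hP.diff, hσd, hne, hud, hvd, hvJ, nhdsWithin_le_nhds huJ]
    with z cP cO cT cJ dP dσ hz dU dV jV jU
  have dP' : DifferentiableAt ℝ P z := by
    have := dP.add_const (OmL D (v 0) a)
    simpa using this
  have dS : HasFDerivAt (fun z => u z - v (σ z))
      (fderiv ℝ u z - (fderiv ℝ v (σ z)).comp (fderiv ℝ σ z)) z :=
    dU.hasFDerivAt.sub (dV.hasFDerivAt.comp z dσ.hasFDerivAt)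
  have dW := dP'.hasFDerivAt.clm_apply dS
  have eW : ∀ ξ, fderiv ℝ (Wf D u v k σ) z ξ =
      (fderiv ℝ P z ξ) (u z - v (σ z)) + P z (fderiv ℝ u z ξ) := by
    intro ξ
    have e1 : fderiv ℝ (Wf D u v k σ) z = _ := dW.fderiv
    have e2 : P z (fderiv ℝ v (σ z) (fderiv ℝ σ z ξ)) = 0 := Om_T h hz jV (fderiv ℝ σ z ξ)
    rw [e1]
    simp only [add_apply, ContinuousLinearMap.comp_apply, ContinuousLinearMap.flip_apply,
      sub_apply, map_sub, e2, sub_zero]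
    ring
  have e3 : P z (fderiv ℝ u z 1) + Complex.I * P z (fderiv ℝ u z Complex.I) =
      Complex.I * P z ((D.J (u z) - D.J (v (σ z))) (fderiv ℝ u z 1)) := by
    rw [jU, sub_apply, map_sub]
    simp only [hPdef, OmL_apply]
    rw [Om_J D (v (σ z)) _ (fderiv ℝ u z 1)]
    linear_combination (Om D (v (σ z)) (Lead.uh D v k (σ z)) (fderiv ℝ u z 1)) * Complex.I_mul_I
  have hs : 0 ≤ ‖u z - v (σ z)‖ := norm_nonneg _
  have hKP : 0 ≤ KP := (ContinuousLinearMap.opNorm_nonneg _).trans cP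
  have hKO : 0 ≤ KO := (norm_nonneg _).trans cO
  have hKT : 0 ≤ KT := (norm_nonneg _).trans cT
  have t1 : ∀ ξ : ℂ, ‖ξ‖ = 1 → ‖(fderiv ℝ P z ξ) (u z - v (σ z))‖ ≤ KP * ‖u z - v (σ z)‖ := by
    intro ξ hξ
    refine ((fderiv ℝ P z ξ).le_opNorm _).trans ?_
    gcongr
    exact ((fderiv ℝ P z).le_opNorm ξ).trans (by rw [hξ, mul_one]; exact cP)
  have t2 : ‖Complex.I * P z ((D.J (u z) - D.J (v (σ z))) (fderiv ℝ u z 1))‖ ≤
        KO * (KJ * KT) * ‖u z - v (σ z)‖ := by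
    rw [norm_mul, Complex.norm_I, one_mul]
    refine ((P z).le_opNorm _).trans ?_
    have t3 : ‖(D.J (u z) - D.J (v (σ z))) (fderiv ℝ u z 1)‖ ≤ KJ * ‖u z - v (σ z)‖ * KT :=
      ((D.J (u z) - D.J (v (σ z))).le_opNorm _).trans (by gcongr)
    calc ‖P z‖ * ‖(D.J (u z) - D.J (v (σ z))) (fderiv ℝ u z 1)‖
        ≤ KO * (KJ * ‖u z - v (σ z)‖ * KT) := by gcongr
      _ = _ := by ring
  have t4 : dbar (Wf D u v k σ) z = (1 / 2 : ℂ) *
      ((fderiv ℝ P z 1) (u z - v (σ z)) +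
      Complex.I * (fderiv ℝ P z Complex.I) (u z - v (σ z)) +
      Complex.I * P z ((D.J (u z) - D.J (v (σ z))) (fderiv ℝ u z 1))) := by
    rw [← e3, dbar, eW, eW, smul_eq_mul, smul_eq_mul]
    ring
  rw [t4, norm_mul]
  have t5 : ‖(1 / 2 : ℂ)‖ = 1 / 2 := by norm_num
  rw [t5]
  have t6 := t1 1 norm_one
  have t7 := t1 Complex.I Complex.norm_I
  have t8 := norm_add₃_le (a := (fderiv ℝ P z 1) (u z - v (σ z)))
      (b := Complex.I * (fderiv ℝ P z Complex.I) (u z - v (σ z)))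
      (c := Complex.I * P z ((D.J (u z) - D.J (v (σ z))) (fderiv ℝ u z 1)))
  rw [norm_mul Complex.I ((fderiv ℝ P z Complex.I) (u z - v (σ z))), Complex.norm_I, one_mul] at t8
  have t9 : 0 ≤ KO * (KJ * KT) * ‖u z - v (σ z)‖ := by positivity
  nlinarith

/-- the transversal difference -/
def nn (D : Data) (u v : ℂ → R4) (a b : R4) (σ : ℂ → ℂ) (z : ℂ) : ℂ :=
  p2 D (v 0) a b (v (σ z) - u z)

/-- the expansion of the transversal difference -/
theorem nn_exp (h : LeadL D v k a b) (hu : ContDiffAt ℝ 1 u 0)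
    (huJ : ∀ᶠ z in 𝓝 (0 : ℂ), fderiv ℝ u z Complex.I = D.J (u z) (fderiv ℝ u z 1))
    (huv : u 0 = v 0) (hσ : ContDiffAt ℝ 1 σ 0)
    (h0 : σ 0 = 0) (hne : ∀ᶠ z in 𝓝[≠] (0 : ℂ), σ z ≠ 0)
    (hx : ∀ᶠ z in 𝓝 (0 : ℂ), p1 D (v 0) a b (v (σ z) - u z) = 0)
    (hd : ∀ᶠ z in 𝓝[≠] (0 : ℂ), v (σ z) ≠ u z)
    {j : ℕ} (hj : 1 ≤ j) (hncl : Cl (j : ℤ) (nn D u v a b σ)) :
    ∃ (m : ℕ) (A : ℂ), j ≤ m ∧ A ≠ 0 ∧
      (fun z => nn D u v a b σ z - A * z ^ m) =o[𝓝[≠] 0] (fun z => z ^ m) := by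
  set n := nn D u v a b σ with hn
  set l0 := Om D (v 0) a b with hl0
  have hl : l0 ≠ 0 := h.hab
  have hdiff : ∀ᶠ z in 𝓝 (0 : ℂ), u z - v (σ z) = - cm D (v 0) (n z) b := by
    filter_upwards [hx] with z hz
    have h2 := frame_decomp D (v 0) a b h.hab (v (σ z) - u z)
    rw [hz, cm_zero, zero_add] at h2
    have h3 : cm D (v 0) (n z) b = v (σ z) - u z := h2.symm
    rw [h3]
    abel
  set P : ℂ → R4 →L[ℝ] ℂ := fun z => OmL D (v (σ z)) (Lead.uh D v k (σ z)) with hPdef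
  have hP : Cl 1 (fun z => P z - OmL D (v 0) a) := P_cl h hσ h0 hne
  have hP0 : Cl 0 P := by
    refine ((hP.mono (m' := 0) (by norm_num)).add (Cl.const (OmL D (v 0) a))).congr
      (Eventually.of_forall fun z => ?_)
    abel
  set W := Wf D u v k σ with hW
  have hWP : ∀ z, W z = P z (u z - v (σ z)) := fun z => rfl
  have hscl : Cl (j : ℤ) (fun z => u z - v (σ z)) := by
    refine ((hncl.clm ((cmB D (v 0)).flip b)).neg).congr ?_
    filter_upwards [nhdsWithin_le_nhds hdiff] with z hz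
    rw [hz, ContinuousLinearMap.flip_apply, cmB_apply]
  have hWcl : Cl (j : ℤ) W := by
    have := hP0.bil (ContinuousLinearMap.id ℝ (R4 →L[ℝ] ℂ)) hscl
    rw [zero_add] at this
    exact this
  -- `W = - l0 n + o(n)`
  obtain ⟨K, hK0, hK⟩ : ∃ K, 0 < K ∧ ∀ t : ℂ, ‖cm D (v 0) t b‖ ≤ K * ‖t‖ := by
    refine ⟨‖(cmB D (v 0)).flip b‖ + 1, by positivity, fun t => ?_⟩
    have := ((cmB D (v 0)).flip b).le_opNorm t
    rw [ContinuousLinearMap.flip_apply, cmB_apply] at this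
    nlinarith [norm_nonneg t]
  have hWn : (fun z => W z + l0 * n z) =o[𝓝[≠] 0] n := by
    rw [isLittleO_iff]
    intro c hc
    have e1 : Tendsto (fun z => ‖P z - OmL D (v 0) a‖) (𝓝[≠] 0) (𝓝 0) := by
      simpa using (hP.tendsto le_rfl).norm
    have e2 := e1.eventually_le_const (show 0 < c / K by positivity)
    filter_upwards [e2, nhdsWithin_le_nhds hdiff] with z e3 e4
    have e5 : W z + l0 * n z = - (P z - OmL D (v 0) a) (cm D (v 0) (n z) b) := by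
      rw [hWP, e4, sub_apply, map_neg, OmL_apply D (v 0) a, Om_cm]
      ring
    rw [e5, norm_neg]
    calc ‖(P z - OmL D (v 0) a) (cm D (v 0) (n z) b)‖
        ≤ ‖P z - OmL D (v 0) a‖ * ‖cm D (v 0) (n z) b‖ := ContinuousLinearMap.le_opNorm _ _
      _ ≤ c / K * (K * ‖n z‖) := by gcongr; exact hK _
      _ = c * ‖n z‖ := by field_simp
  have hlpos : 0 < ‖l0‖ := norm_pos_iff.2 hl
  have hnW : ∀ᶠ z in 𝓝[≠] (0 : ℂ), ‖n z‖ ≤ 2 / ‖l0‖ * ‖W z‖ := by
    filter_upwards [(isLittleO_iff.1 hWn) (show 0 < ‖l0‖ / 2 by positivity)] with z hz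
    have e1 : ‖l0 * n z‖ ≤ ‖W z‖ + ‖W z + l0 * n z‖ := by
      have := norm_sub_le (W z + l0 * n z) (W z)
      rw [add_sub_cancel_left] at this
      linarith
    rw [norm_mul] at e1
    have e2 : ‖l0‖ / 2 * ‖n z‖ ≤ ‖W z‖ := by linarith
    rw [div_mul_eq_mul_div, le_div_iff₀ hlpos]
    linarith
  obtain ⟨C, hC⟩ := W_deriv h hu huJ huv hσ h0 hne
  have hC' : ∀ᶠ z in 𝓝[≠] (0 : ℂ), ‖dbar W z‖ ≤ |C| * (K * (2 / ‖l0‖)) * ‖W z‖ := by
    filter_upwards [hC, hnW, nhdsWithin_le_nhds hdiff] with z e1 e2 e3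
    refine e1.trans ?_
    rw [e3, norm_neg]
    calc C * ‖cm D (v 0) (n z) b‖ ≤ |C| * (K * (2 / ‖l0‖ * ‖W z‖)) := by
          gcongr
          · exact le_abs_self C
          · exact (hK _).trans (by gcongr)
      _ = _ := by ring
  -- the similarity principle
  obtain ⟨R, hR, hball⟩ := Metric.eventually_nhds_iff_ball.1
    (eventually_nhdsWithin_iff.1 (hC'.and hWcl.c1))
  have hW0 : W 0 = 0 := by
    rw [hWP, h0, huv, sub_self, map_zero]
  have hcont : ContinuousOn W (ball 0 R) := by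
    intro z hz
    rcases eq_or_ne z 0 with rfl | hz0
    · refine ContinuousAt.continuousWithinAt ?_
      rw [continuousAt_iff_punctured_nhds, hW0]
      exact hWcl.tendsto (by omega)
    · exact (hball z hz hz0).2.continuousAt.continuousWithinAt
  rcases SP.expansion hR hcont
    (fun z hz => (hball z hz.1 hz.2).2.contDiffWithinAt)
    (fun z hz => (hball z hz.1 hz.2).1) with ⟨r, hr, hz⟩ | ⟨m, A, hA, hexp⟩
  · exfalso
    have e1 : ∀ᶠ z in 𝓝[≠] (0 : ℂ), n z ≠ 0 := by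
      filter_upwards [hd, nhdsWithin_le_nhds hdiff] with z h1 h2 h3
      rw [h3, cm_zero, neg_zero] at h2
      exact h1 (sub_eq_zero.1 h2).symm
    have e2 : ∀ᶠ z in 𝓝[≠] (0 : ℂ), z ∈ ball (0 : ℂ) r := nhdsWithin_le_nhds (ball_mem_nhds 0 hr)
    obtain ⟨z, e3, e4, e5⟩ := (e1.and (e2.and hnW)).exists
    rw [hz z e4, norm_zero, mul_zero] at e5
    exact e3 (norm_le_zero_iff.1 e5)
  · simp only [smul_eq_mul] at hexp
    have hexp' := hexp.mono (nhdsWithin_le_nhds (s := {(0 : ℂ)}ᶜ))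
    have hWO : W =O[𝓝[≠] 0] (fun z : ℂ => z ^ m) := by
      have e1 := hexp'.isBigO.add (isBigO_const_mul_self A (fun z : ℂ => z ^ m) (𝓝[≠] 0))
      refine e1.congr_left fun z => ?_
      ring
    have hnO : n =O[𝓝[≠] 0] (fun z : ℂ => z ^ m) :=
      (IsBigO.of_bound _ hnW).trans hWO
    have h1 : (fun z => n z - (-A / l0) * z ^ m) =o[𝓝[≠] 0] (fun z : ℂ => z ^ m) := by
      have e1 := ((hWn.trans_isBigO hnO).sub hexp').const_mul_left (l0⁻¹)
      refine e1.congr_left fun z => ?_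
      field_simp
      ring
    refine ⟨m, -A / l0, ?_, div_ne_zero (neg_ne_zero.2 hA) hl, h1⟩
    -- the order is at least `j`
    by_contra hcon
    have hm : m + 1 ≤ j := by omega
    have e1 : W =o[𝓝[≠] 0] (fun z : ℂ => z ^ m) := by
      refine hWcl.bd.trans_isLittleO ?_
      rw [isLittleO_iff]
      intro c hc
      have e2 : ∀ᶠ z in 𝓝[≠] (0 : ℂ), z ∈ ball (0 : ℂ) c :=
        nhdsWithin_le_nhds (ball_mem_nhds 0 hc)
      filter_upwards [e2, small_ev, ne_ev] with z e3 e4 e5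
      rw [mem_ball_zero_iff] at e3
      rw [norm_zpow, norm_norm, norm_pow, zpow_natCast]
      have e7 : ‖z‖ ^ j ≤ ‖z‖ ^ (m + 1) := pow_le_pow_of_le_one (norm_nonneg _) e4.le hm
      refine e7.trans ?_
      rw [pow_succ, mul_comm]
      gcongr
    have e2 : (fun z : ℂ => A * z ^ m) =o[𝓝[≠] 0] (fun z : ℂ => z ^ m) := by
      refine (e1.sub hexp').congr_left fun z => ?_
      ring
    have e3 := (isLittleO_iff.1 e2) (show 0 < ‖A‖ / 2 by
      have := norm_pos_iff.2 hA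
      positivity)
    obtain ⟨z, e4, e5⟩ := (e3.and ne_ev).exists
    rw [norm_mul] at e4
    have e6 : 0 < ‖z ^ m‖ := norm_pos_iff.2 (pow_ne_zero _ e5)
    have e7 := norm_pos_iff.2 hA
    nlinarith

end Vale.Agent.P247.H558.SH
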