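import Vale.Agent.P247.H558.SH.Two

/-!
# P247, layer C: winding numbers of differences of sheets
-/

open scoped ContDiff Topology
open Set MeasureTheory Filter Metric Asymptotics

noncomputable section

namespace Vale.Agent.P247.H558.SH

open Vale.Agent.P247.H74 Vale.Agent.P247.H74.CE Vale.Agent.P247.H574

variable {D : Data} {u v : ℂ → R4} {k : ℕ} {a₁ a₂ a b : R4} {σ : ℂ → ℂ}

/-- expansion of the difference of two sheets -/
theorem sheet_exp (hu : LeadL D u k a₁ b) (hv : LeadL D v k a₂ b) (h0 : u 0 = v 0)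
    (hab : Om D (v 0) a b ≠ 0) (hσ : ContDiffAt ℝ 1 σ 0) (hσ0 : σ 0 = 0)
    (hσn : ∀ᶠ z in 𝓝[≠] (0 : ℂ), σ z ≠ 0)
    (hm : ∀ᶠ z in 𝓝 (0 : ℂ), Om D (v 0) (u z - v 0) b = Om D (v 0) (v (σ z) - v 0) b)
    (hne : ∀ᶠ z in 𝓝[≠] (0 : ℂ), u z ≠ v (σ z)) :
    ∃ (m : ℕ) (A : ℂ), k ≤ m ∧ (a₁ = a₂ → k + 1 ≤ m) ∧ A ≠ 0 ∧
      (fun z => p2 D (v 0) a b (u z - v (σ z)) - A * z ^ m) =o[𝓝[≠] 0] (fun z => z ^ m) := by
  -- the part of `v`
  have hvc : Cl ((k : ℤ) + 1) (fun z => p2 D (v 0) a₂ b (v (σ z) - v 0)) :=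
    hv.u2_cl.right (by have := hv.hk; omega) hσ hσ0 hσn
  have key : ∀ j : ℕ, 1 ≤ j → (j : ℤ) ≤ (k : ℤ) + 1 →
      Cl (j : ℤ) (fun z => p2 D (v 0) a₂ b (u z - v 0)) →
      ∃ (m : ℕ) (A : ℂ), j ≤ m ∧ A ≠ 0 ∧
      (fun z => p2 D (v 0) a b (u z - v (σ z)) - A * z ^ m) =o[𝓝[≠] 0] (fun z => z ^ m) := by
    intro j hj hjk huc
    have hncl : Cl (j : ℤ) (nn D u v a₂ b σ) := by
      refine ((hvc.mono hjk).sub huc).congr (Eventually.of_forall fun z => ?_)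
      simp only [nn]
      rw [← map_sub]
      congr 1
      abel
    have hx : ∀ᶠ z in 𝓝 (0 : ℂ), p1 D (v 0) a₂ b (v (σ z) - u z) = 0 := by
      filter_upwards [hm] with z hz
      have e1 : v (σ z) - u z = (v (σ z) - v 0) - (u z - v 0) := by abel
      rw [e1, map_sub, p1_apply, p1_apply, hz, sub_self]
    obtain ⟨m, A, h1, h2, h3⟩ := nn_exp hv hu.c1 hu.hJ h0 hσ hσ0 hσn hx
      (hne.mono fun z hz => hz.symm) hj hncl
    refine ⟨m, -A, h1, neg_ne_zero.2 h2, ?_⟩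
    refine h3.neg_left.congr' ?_ (EventuallyEq.refl _ _)
    filter_upwards [nhdsWithin_le_nhds hx] with z hz
    have e2 := frame_decomp D (v 0) a₂ b hv.hab (v (σ z) - u z)
    rw [hz, cm_zero, zero_add] at e2
    have e3 : u z - v (σ z) = -(v (σ z) - u z) := by abel
    have e4 : p2 D (v 0) a b (v (σ z) - u z) = nn D u v a₂ b σ z := by
      rw [e2, p2_b D (v 0) a b hab]
      rfl
    rw [e3, map_neg, e4]
    ring
  by_cases ha : a₁ = a₂
  · subst ha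
    obtain ⟨m, A, h1, h2, h3⟩ := key (k + 1) (by omega) (by push_cast; exact le_rfl) (by
      have := hu.u2_cl
      rw [h0] at this
      push_cast
      exact this)
    exact ⟨m, A, by omega, fun _ => h1, h2, h3⟩
  · obtain ⟨m, A, h1, h2, h3⟩ := key k hu.hk (by omega) (by
      have := hu.sub_cl.clm (p2 D (v 0) a₂ b)
      rw [h0] at this
      exact this)
    exact ⟨m, A, h1, fun h => absurd h ha, h2, h3⟩

/-- winding number of the difference of two sheets -/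
theorem sheet_wind (hu : LeadL D u k a₁ b) (hv : LeadL D v k a₂ b) (h0 : u 0 = v 0)
    (hab : Om D (v 0) a b ≠ 0) (hσ : ContDiffAt ℝ 1 σ 0) (hσ0 : σ 0 = 0)
    (hσn : ∀ᶠ z in 𝓝[≠] (0 : ℂ), σ z ≠ 0)
    (hm : ∀ᶠ z in 𝓝 (0 : ℂ), Om D (v 0) (u z - v 0) b = Om D (v 0) (v (σ z) - v 0) b)
    (hne : ∀ᶠ z in 𝓝[≠] (0 : ℂ), u z ≠ v (σ z)) :
    ∃ m : ℕ, k ≤ m ∧ (a₁ = a₂ → k + 1 ≤ m) ∧
      (∀ᶠ z in 𝓝 (0 : ℂ), ContinuousAt
        (fun z => (Om D (v 0) a b)⁻¹ * Om D (v 0) a (u z - v (σ z))) z) ∧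
      ∀ᶠ r in 𝓝[>] (0 : ℝ), HasWinding
        (fun z => (Om D (v 0) a b)⁻¹ * Om D (v 0) a (u z - v (σ z))) 0 r m := by
  obtain ⟨m, A, h1, h2, hA, h3⟩ := sheet_exp hu hv h0 hab hσ hσ0 hσn hm hne
  have e1 : (fun z => (Om D (v 0) a b)⁻¹ * Om D (v 0) a (u z - v (σ z))) =
      fun z => p2 D (v 0) a b (u z - v (σ z)) := by
    funext z
    rw [p2_apply]
  have hσt : Tendsto σ (𝓝 0) (𝓝 0) := by
    have := hσ.continuousAt
    unfold ContinuousAt at this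
    rwa [hσ0] at this
  have hc : ∀ᶠ z in 𝓝 (0 : ℂ), ContinuousAt
        (fun z => p2 D (v 0) a b (u z - v (σ z))) z := by
    have c1 : ∀ᶠ z in 𝓝 (0 : ℂ), ContinuousAt u z :=
      (hu.c1.eventually (by simp)).mono fun z hz => hz.continuousAt
    have c2 : ∀ᶠ z in 𝓝 (0 : ℂ), ContinuousAt σ z :=
      (hσ.eventually (by simp)).mono fun z hz => hz.continuousAt
    have c3 : ∀ᶠ z in 𝓝 (0 : ℂ), ContinuousAt v (σ z) :=
      hσt.eventually ((hv.c1.eventually (by simp)).mono fun z hz => hz.continuousAt)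
    filter_upwards [c1, c2, c3] with z d1 d2 d3
    exact (p2 D (v 0) a b).continuous.continuousAt.comp
      (d1.sub (ContinuousAt.comp (f := σ) (g := v) (x := z) d3 d2))
  refine ⟨m, h1, h2, ?_, ?_⟩
  · rw [e1]; exact hc
  · rw [e1]
    refine WWIND.W6 _ 0 A (m : ℤ) hA (nhdsWithin_le_nhds hc) ?_
    simpa using h3

end Vale.Agent.P247.H558.SH
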